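import Crest.Agent.X212.Lix26.Defs
import Mathlib.Topology.Homotopy.Lifting

/-!
# Row 212, LIX-DECK (helper68): the deck group of the covering of the lens space
-/

set_option autoImplicit false
noncomputable section
open scoped Manifold ContDiff Topology
open Set Function Filter Metric
open Crest.Agent.R208.F (Ext)

namespace Crest.Agent.X212.Dck68
open Lns95
open M (Mf Band)
open Glue52 (dir)
open Rod53 (S3' L4 rot sphD)

/-- paths in a proper slice over a disc close up -/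
theorem loop_closed {X : Type} [TopologicalSpace X] [T2Space X] [LocallyCompactSpace X] {O : Set X}
    (hO : IsOpen O) {u w : X → ℂ} (hΦ : IsLocalHomeomorphOn (fun x => (u x, w x)) O) {r : ℝ}
    (hK : IsCompact {x | x ∈ O ∧ u x = 0 ∧ ‖w x‖ ≤ r}) {γ : ℝ → X} (hγ : Continuous γ)
    (h : ∀ t, γ t ∈ O ∧ u (γ t) = 0 ∧ ‖w (γ t)‖ < r) {t : ℝ} (e : w (γ t) = w (γ 0)) :
    γ t = γ 0 := by
  obtain ⟨K, k1, k2, k3⟩ := exists_compact_between hK hO fun x hx => hx.1
  have := isCompact_iff_compactSpace.1 k1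
  let f : K → ℂ × ℂ := fun x => (u x, w x)
  have fc : Continuous f := (hΦ.continuousOn.mono k3).domRestrict
  have cov : IsCoveringMapOn f ({0} ×ˢ ball 0 r) := .of_isLocalHomeomorphOn fc
    (IsLocalHomeomorphOn.comp (f := Subtype.val) hΦ ((isLocalHomeomorphOn_iff_isOpenEmbedding_restrict _).2
      fun x hx => ⟨Subtype.val ⁻¹' interior K, (isOpen_interior.preimage continuous_subtype_val).mem_nhds
        (k2 ⟨k3 x.2, hx.1, (mem_ball_zero_iff.1 hx.2).le⟩),
        Topology.IsEmbedding.subtypeVal.comp .subtypeVal, ?_⟩) fun x _ => k3 x.2)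
  · have m : ∀ t, w (γ t) ∈ ball (0 : ℂ) r := fun t => mem_ball_zero_iff.2 (h t).2.2
    let Γ : C(ℝ, K) := ⟨fun t => ⟨γ t, interior_subset (k2 ⟨(h t).1, (h t).2.1, (h t).2.2.le⟩)⟩,
      hγ.subtype_mk _⟩
    have := (convex_ball (0 : ℂ) r).contractibleSpace ⟨_, m 0⟩
    have := (isOpen_ball (x := (0 : ℂ)) (ε := r)).locallyPathConnectedSpace
    obtain ⟨F, ⟨F0, hF⟩, -⟩ := cov.existsUnique_continuousMap_lifts (A := ball (0 : ℂ) r)
      ⟨fun z => (0, z), by fun_prop⟩ (a₀ := ⟨_, m 0⟩) (e₀ := Γ 0) (Prod.ext (h 0).2.1 rfl)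
      fun z => ⟨rfl, z.2⟩
    let θ : C(ℝ, ball (0 : ℂ) r) := ⟨fun t => ⟨w (γ t), m t⟩,
      (continuous_snd.comp (fc.comp Γ.continuous)).subtype_mk _⟩
    have q := (cov.existsUnique_continuousMap_lifts ((⟨f, fc⟩ : C(K, ℂ × ℂ)).comp Γ) (a₀ := 0)
      (e₀ := Γ 0) rfl fun t => ⟨(h t).2.1, m t⟩).unique (y₁ := Γ) (y₂ := F.comp θ) ⟨rfl, rfl⟩
      ⟨F0, funext fun t => (congrFun hF (θ t)).trans (Prod.ext (h t).2.1.symm rfl)⟩
    have q1 := fun t => congrArg (fun G : C(ℝ, K) => (G t).1) q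
    exact (q1 t).trans ((congrArg (fun z => (F z).1) (Subtype.ext e : θ t = θ 0)).trans (q1 0).symm)
  · convert isOpen_interior (s := K) using 1
    ext x
    exact ⟨fun ⟨y, e⟩ => e ▸ y.2, fun k => ⟨⟨⟨x, interior_subset k⟩, k⟩, rfl⟩⟩

/-- the circle action on the sphere -/
def R (ζ : Circle) (y : S3') : S3' := sphD (n := 3) (rot ζ ζ) y

theorem L4_R (ζ : Circle) (y : S3') : L4 (R ζ y) = (ζ : ℂ) • L4 y := Rod53.L4_rot ζ ζ y

theorem cont_R : Continuous fun p : Circle × S3' => R p.1 p.2 :=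
  Continuous.subtype_mk (f := fun p : Circle × S3' => L4.symm ((p.1 : ℂ) • L4 p.2)) (by fun_prop) _

theorem nrm (b : Bool) (y : S3') : ‖(Th b y).1‖ ^ 2 + ‖(Th b y).2‖ ^ 2 = 1 := by
  have := Rod53.norm_L4 y
  rw [norm_eq_of_mem_sphere, one_pow] at this
  cases b
  exacts [this, (add_comm _ _).trans this]

variable {X : Mf 4} {o : X.M → Ext X.E} {n : ℕ} {B : Band X} {κ : Type} [Fintype κ]
  {e : κ → Met55.VF B.Y.I B.Y.M} (L : LB X o n B e)

theorem fwd {y y' : S3'} (h : L.c y = L.c y') : ∃ ζ : ℂ, ζ ^ n = 1 ∧ L4 y' = ζ • L4 y := by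
  have m : (-1 : ℝ) ∈ Ioo (-3 : ℝ) 0 := by constructor <;> norm_num
  have ne : ∀ b (y : S3'), (Th b y).2 = 0 → (Th (!b) y).2 ≠ 0 ∧ (Th (!b) y).1 = 0 := fun b y k =>
    ⟨fun k' => by
      have := nrm b y
      rw [k, show (Th b y).1 = (Th (!b) y).2 by cases b <;> rfl, k'] at this
      simp at this, by cases b <;> exact k⟩
  obtain ⟨b, hb⟩ : ∃ b, (Th b y).2 ≠ 0 := (em _).elim (fun k => ⟨_, (ne false y k).1⟩) fun k => ⟨_, k⟩
  obtain ⟨a1, a2, a3⟩ := L.band.eq b y _ m hb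
  have hb' : (Th b y').2 ≠ 0 := fun k => by
    obtain ⟨b1, b2, -⟩ := L.band.eq (!b) y' _ m (ne b y' k).1
    rw [(ne b y' k).2, zero_mul, ← h] at b2
    rw [← h] at b1
    exact L.D.ne (!b) _ (by cases b; exacts [⟨a1, b1⟩, ⟨b1, a1⟩]) b2
  obtain ⟨-, b2, b3⟩ := L.band.eq b y' _ m hb'
  rw [← h, a2] at b2
  rw [← h, a3] at b3
  have g0 : ((√(L.g (-1)) : ℝ) : ℂ) ≠ 0 := by exact_mod_cast (Real.sqrt_pos.2 (L.band.pos _)).ne'
  have c3 := Circle.ext (mul_left_cancel₀ g0 b3)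
  have c4 : ‖(Th b y').2‖ = ‖(Th b y).2‖ := by
    have := congrArg norm b2
    simp only [norm_mul, Circle.norm_coe, mul_one] at this
    refine (pow_left_inj₀ (norm_nonneg _) (norm_nonneg _) two_ne_zero).1 ?_
    linarith [nrm b y, nrm b y', congrArg (· ^ 2) this]
  have k : Th b y' = ((dir (Th b y').2 / dir (Th b y).2 : Circle) : ℂ) • Th b y := by
    have d := (dir (Th b y').2).coe_ne_zero
    have d' := (dir (Th b y).2).coe_ne_zero
    refine Prod.ext ?_ ?_
    · rw [Circle.coe_inv, Circle.coe_inv] at b2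
      rw [Prod.smul_fst, smul_eq_mul, Circle.coe_div]
      field_simp at b2 ⊢
      exact b2.symm
    · rw [Prod.smul_snd, smul_eq_mul, Circle.coe_div]
      conv_lhs => rw [← Glue52.norm_mul_dir (Th b y').2, c4]
      conv_rhs => rw [← Glue52.norm_mul_dir (Th b y).2]
      rw [Glue52.dir_mul (norm_pos_iff.2 hb)]
      field_simp
  refine ⟨(dir (Th b y').2 / dir (Th b y).2 : Circle),
    by rw [← Circle.coe_pow, div_pow, c3, div_self', Circle.coe_one], ?_⟩
  cases b
  exacts [k, congrArg Prod.swap k]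

theorem lh (b : Bool) : IsLocalHomeomorphOn (fun x => (L.D.u b x, L.D.w b x)) (L.D.O b) := by
  have c := L.D.ch b
  have d : Module.finrank ℝ (ℂ × ℂ) = Module.finrank ℝ X.E := by
    rw [X.dim, Module.finrank_prod, Complex.finrank_real_complex]
  refine IsLocalDiffeomorphOn.isLocalHomeomorphOn (I := X.I) (J := Rod53.IV) (n := ∞) fun x =>
    Glue52.ld_of_injective_mfderiv d.symm c.op x.2 (fun y hy =>
      ((c.su y hy).prodMk_space (c.sw y hy)).contMDiffWithinAt) ?_
  have p := c.pos x x.2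
  rw [Dr59.pm_apply, Int54.tp_pb d, Int54.jac_eq d] at p
  exact Injective.of_comp (f := Int54.eqv d) (LinearMap.equivOfDetNeZero _
    (left_ne_zero_of_mul (left_ne_zero_of_mul p.ne'))).injective

theorem cpt [CompactSpace X.M] :
    IsCompact {x | x ∈ L.D.O false ∧ L.D.u false x = 0 ∧ ‖L.D.w false x‖ ≤ √(L.g (-1))} := by
  have c := L.D.ch false
  refine (isClosed_of_closure_subset fun x hx => ?_).isCompact
  have k : x ∈ (B.wall.sd true ∪ B.slab (Ioi (-1)))ᶜ := closure_minimal (fun z hz => by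
    rintro (k | ⟨q, k, rfl⟩)
    · exact disjoint_left.1 B.wall.dj k (L.D.sub _ hz.1)
    · exact (L.band.up.strictMono k.2).not_ge ((L.band.hi _ q hz.1).trans
        ((pow_le_pow_left₀ (norm_nonneg _) hz.2.2 2).trans_eq (Real.sq_sqrt (L.band.pos _).le))))
    ((B.wall.op_sd _).union (B.isOpen_slab isOpen_Ioi)).isClosed_compl hx
  have k' : x ∈ B.wall.sd false := by
    by_cases e : x ∈ range B.j
    · obtain ⟨q, rfl⟩ := e
      have : q.2 ≤ -1 := not_lt.1 fun h => k (.inr (B.j_mem_slab.2 h))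
      exact B.j_mem_sd.2 (by simp only [M.pm]; norm_num; linarith)
    · obtain ⟨_ | _, h⟩ := B.wall.cov x e
      exacts [h, (k (.inl h)).elim]
  obtain ⟨_ | _, h⟩ := (L.D.cov x).1 k'
  · exact ⟨h, (c.su x h).continuousAt.continuousWithinAt.eq_const_of_mem_closure hx fun _ k => k.2.1,
      ContinuousWithinAt.closure_le hx (c.sw x h).continuousAt.norm.continuousWithinAt
        continuousWithinAt_const fun _ k => k.2.2⟩
  · obtain ⟨z, h1, h2⟩ := mem_closure_iff.1 hx _ (L.D.ch true).op h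
    exact (L.D.ne false z ⟨h2.1, h1⟩ h2.2.1).elim

theorem base [CompactSpace X.M] {ζ : Circle} (hζ : ζ ^ n = 1) : ∃ y, L.c (R ζ y) = L.c y := by
  let y : S3' := ⟨L4.symm (0, 1), mem_sphere_zero_iff_norm.2 <|
    (pow_left_inj₀ (norm_nonneg _) zero_le_one two_ne_zero).1 (by simp [← Rod53.norm_L4])⟩
  have e : ∀ α, Th false (R α y) = (0, (α : ℂ)) := fun α => (L4_R α y).trans (by simp [y])
  have k := fun α : Circle => L.band.eq false (R α y) (-2) (by constructor <;> norm_num)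
    (by rw [e]; exact α.coe_ne_zero)
  have d : ∀ α : Circle, dir α = α := fun α => by simpa using Glue52.dir_mul one_pos α
  simp only [e, zero_mul, d] at k
  have := loop_closed (L.D.ch false).op (lh L false) (cpt L)
    (γ := fun t => B.j (L.c (R (Circle.exp t) y), -2))
    (B.oe.continuous.comp ((L.ld.contMDiff.continuous.comp
      (cont_R.comp (Circle.exp.continuous.prodMk continuous_const))).prodMk continuous_const))
    (fun t => ⟨(k _).1, (k _).2.1, by
      rw [(k _).2.2, norm_mul, Circle.norm_coe, mul_one, Complex.norm_real,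
        Real.norm_of_nonneg (Real.sqrt_nonneg _)]
      exact Real.sqrt_lt_sqrt (L.band.pos _).le (L.band.up.strictMono (by norm_num))⟩)
    (t := Complex.arg ζ) (by rw [(k _).2.2, (k _).2.2, Circle.exp_arg, hζ, Circle.exp_zero, one_pow])
  rw [Circle.exp_arg, Circle.exp_zero] at this
  exact ⟨y, (congrArg Prod.fst (B.oe.inj this)).trans
    (congrArg L.c (Subtype.ext (L4.injective ((L4_R 1 y).trans (one_smul _ _)))))⟩

theorem bwd [CompactSpace X.M] {ζ : Circle} (hζ : ζ ^ n = 1) (y : S3') : L.c (R ζ y) = L.c y := by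
  have cc := L.ld.contMDiff.continuous
  have c0 : Continuous (R ζ) := (sphD (n := 3) (rot ζ ζ)).continuous
  have c1 : Continuous fun y => L.c (R ζ y) := cc.comp c0
  have : PreconnectedSpace S3' := isPreconnected_iff_preconnectedSpace.1
    (isConnected_sphere (by rw [← Module.finrank_eq_rank, finrank_euclideanSpace_fin]; norm_num) _
      zero_le_one).2
  refine (IsClopen.eq_univ ⟨isClosed_eq c1 cc, isOpen_iff_mem_nhds.2 fun y₀ h₀ => ?_⟩
    (base L hζ)).ge (mem_univ y)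
  obtain ⟨φ, h1, h2⟩ := L.ld.isLocalHomeomorph y₀
  have t1 : Tendsto (fun y => L.c (R ζ y)) (𝓝 y₀) (𝓝 (φ y₀)) := by
    rw [← h2, ← show L.c (R ζ y₀) = _ from h₀]; exact c1.continuousAt
  have t2 := (φ.tendsto_symm h1).comp t1
  have k : ∀ θ ∈ (Polynomial.nthRootsFinset n (1 : ℂ)).erase ζ, ∀ᶠ y in 𝓝 y₀,
      L4 (R ζ y) ≠ θ • L4 (φ.symm (L.c (R ζ y))) := fun θ hθ => by
    have t3 : Tendsto (fun y => L4 (R ζ y) - θ • L4 (φ.symm (L.c (R ζ y)))) (𝓝 y₀)
        (𝓝 (L4 (R ζ y₀) - θ • L4 y₀)) :=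
      ((L4.continuous.comp (continuous_subtype_val.comp c0)).tendsto _).sub
        ((((L4.continuous.comp continuous_subtype_val).tendsto _).comp t2).const_smul θ)
    refine (t3.eventually_ne ?_).mono fun _ => mt sub_eq_zero.2
    rw [L4_R, ← sub_smul]
    exact smul_ne_zero (sub_ne_zero.2 (Finset.ne_of_mem_erase hθ).symm)
      (by simpa using Rod53.L4_ne one_pos y₀)
  filter_upwards [(eventually_all_finset _).2 k, t1.eventually (φ.open_target.mem_nhds (φ.map_source h1))]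
    with y k1 k2
  have e : L.c (φ.symm (L.c (R ζ y))) = L.c (R ζ y) := (congrFun h2 _).trans (φ.right_inv k2)
  obtain ⟨θ, a1, a2⟩ := fwd L e
  obtain rfl : θ = ζ := by_contra fun k => k1 θ (Finset.mem_erase.2
    ⟨k, (Polynomial.mem_nthRootsFinset (Nat.pos_of_ne_zero L.n0) _).2 a1⟩) a2
  rw [L4_R, smul_right_inj ζ.coe_ne_zero] at a2
  exact e.symm.trans (congrArg L.c (Subtype.ext (L4.injective a2.symm)))

/-- **DECK** -/
theorem deck : Lix26.DeckStmt := fun X _ o n B κ _ e L y y' => ⟨fwd L, fun ⟨ζ, h1, h2⟩ => by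
  let η : Circle := ⟨ζ, mem_sphere_zero_iff_norm.2 (Complex.norm_eq_one_of_pow_eq_one h1 L.n0)⟩
  rw [← bwd L (ζ := η) (Circle.ext (by simpa using h1)) y]
  exact congrArg L.c (Subtype.ext (L4.injective ((L4_R η y).trans h2.symm)))⟩

end Crest.Agent.X212.Dck68
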